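import Vale.Agent.Lib.P074.Third.Defs

/-!
# P074: the finite-sum algebra (`AbsorbStatement`)

Two per-index inequalities (one scalar, one vector valued) are summed and combined with the two
tilt inequalities `(S1)` and `(S2)`.
-/

namespace Vale.Agent.Lib.P074

namespace Absorb

/-- Positivity of the Gaussian masses and existence of positive square roots. -/
private lemma roots (q a a' v v' : ℝ) (hq1 : 1 ≤ q) (hv : 0 < v)
    (hvv : |v' - v| ≤ v / 2) (h1 : v ≤ q * a) (h3 : v' ≤ q * a') :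
    ∃ sa sb : ℝ, 0 < sa ∧ 0 < sb ∧ a = sa ^ 2 ∧ a' = sb ^ 2 ∧
      Real.sqrt (a * a') = sa * sb := by
  have hq0 : 0 < q := by linarith
  have ha : 0 < a := by
    by_contra h
    push Not at h
    nlinarith
  have hv' : 0 < v' := by
    have := abs_le.mp hvv
    linarith
  have ha' : 0 < a' := by
    by_contra h
    push Not at h
    nlinarith
  refine ⟨Real.sqrt a, Real.sqrt a', Real.sqrt_pos.mpr ha, Real.sqrt_pos.mpr ha',
    (Real.sq_sqrt ha.le).symm, (Real.sq_sqrt ha'.le).symm, Real.sqrt_mul ha.le a'⟩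

/-- Comparison of the two square roots. -/
private lemma cmp (q sa sb v v' : ℝ) (hq2 : q ≤ 1.0102) (hv : 0 < v)
    (hsa : 0 < sa) (hsb : 0 < sb)
    (hvv : |v' - v| ≤ v / 2) (h1 : v ≤ q * sa ^ 2) (h2 : sa ^ 2 ≤ v) (h3 : v' ≤ q * sb ^ 2)
    (h4 : sb ^ 2 ≤ v') : sa ≤ 1.43 * sb ∧ sb ≤ 1.24 * sa := by
  have hvv' := abs_le.mp hvv
  constructor
  · by_contra h
    push Not at h
    have : (1.43 * sb) ^ 2 < sa ^ 2 := by
      apply pow_lt_pow_left₀ h (by positivity) (by norm_num)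
    nlinarith [sq_nonneg sb]
  · by_contra h
    push Not at h
    have : (1.24 * sa) ^ 2 < sb ^ 2 := by
      apply pow_lt_pow_left₀ h (by positivity) (by norm_num)
    nlinarith [sq_nonneg sa]

/-- The scalar per-index inequality. -/
private lemma idx1 (q a a' v v' : ℝ) (hq1 : 1 ≤ q) (hq2 : q ≤ 1.0102) (hv : 0 < v)
    (hvv : |v' - v| ≤ v / 2) (h1 : v ≤ q * a) (h2 : a ≤ v) (h3 : v' ≤ q * a') (h4 : a' ≤ v') :
    a + a' - 2 * Real.sqrt (a * a') ≤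
      2 * q * ((v' - v) ^ 2 / v) + 2.86 * (Real.sqrt (a * a') * (v / a - v' / a') ^ 2) := by
  obtain ⟨sa, sb, hsa, hsb, rfl, rfl, hs⟩ := roots q a a' v v' hq1 hv hvv h1 h3
  rw [hs]
  obtain ⟨hc1, hc2⟩ := cmp q sa sb v v' hq2 hv hsa hsb hvv h1 h2 h3 h4
  have hsa2 : 0 < sa ^ 2 := by positivity
  have hsb2 : 0 < sb ^ 2 := by positivity
  obtain ⟨r, rfl⟩ : ∃ r, v = r * sa ^ 2 := ⟨v / sa ^ 2, by field_simp⟩
  obtain ⟨r', rfl⟩ : ∃ r', v' = r' * sb ^ 2 := ⟨v' / sb ^ 2, by field_simp⟩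
  rw [mul_div_assoc, mul_div_assoc, div_self hsa2.ne', div_self hsb2.ne', mul_one, mul_one]
  have hr1 : 1 ≤ r := by
    by_contra h
    push Not at h
    nlinarith
  have hr2 : r ≤ q := by
    by_contra h
    push Not at h
    nlinarith
  have hr'1 : 1 ≤ r' := by
    by_contra h
    push Not at h
    nlinarith
  have hr0 : 0 < r := by linarith
  set A := r' * sb ^ 2 - r * sa ^ 2 with hA
  have e1 : (sb - sa) ^ 2 * sa ^ 2 ≤ 2 * A ^ 2 + 2 * (r' - r) ^ 2 * sa ^ 4 := by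
    have t1 : (sb - sa) ^ 2 * sa ^ 2 ≤ (sb ^ 2 - sa ^ 2) ^ 2 := by
      have : (sb ^ 2 - sa ^ 2) ^ 2 = (sb - sa) ^ 2 * (sb + sa) ^ 2 := by ring
      rw [this]
      apply mul_le_mul_of_nonneg_left _ (sq_nonneg _)
      nlinarith
    have t2 : (sb ^ 2 - sa ^ 2) ^ 2 ≤ (r' * (sb ^ 2 - sa ^ 2)) ^ 2 := by
      rw [mul_pow]
      have : 1 ≤ r' ^ 2 := by nlinarith
      nlinarith [sq_nonneg (sb ^ 2 - sa ^ 2)]
    have t3 : (r' * (sb ^ 2 - sa ^ 2)) ^ 2 ≤ 2 * A ^ 2 + 2 * (r' - r) ^ 2 * sa ^ 4 := by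
      nlinarith [sq_nonneg (A + (r' - r) * sa ^ 2)]
    linarith
  have e2 : (sb - sa) ^ 2 ≤ 2 * (A ^ 2 / sa ^ 2) + 2 * (r' - r) ^ 2 * sa ^ 2 := by
    have : 2 * (A ^ 2 / sa ^ 2) + 2 * (r' - r) ^ 2 * sa ^ 2
        = (2 * A ^ 2 + 2 * (r' - r) ^ 2 * sa ^ 4) / sa ^ 2 := by
      field_simp
    rw [this, le_div_iff₀ hsa2]
    exact e1
  have e3 : A ^ 2 / sa ^ 2 ≤ q * (A ^ 2 / (r * sa ^ 2)) := by
    have : q * (A ^ 2 / (r * sa ^ 2)) = (q / r) * (A ^ 2 / sa ^ 2) := by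
      field_simp
    rw [this]
    have h1q : 1 ≤ q / r := (one_le_div hr0).mpr hr2
    have hn : 0 ≤ A ^ 2 / sa ^ 2 := by positivity
    nlinarith
  have e4 : 2 * (r' - r) ^ 2 * sa ^ 2 ≤ 2.86 * (sa * sb * (r - r') ^ 2) := by
    have hn : 0 ≤ (r' - r) ^ 2 * sa := by positivity
    nlinarith
  nlinarith

/-- The vector part: the squared norm of the difference of the two moments. -/
private lemma vec {d : ℕ} (D q sa sb v : ℝ) (P P' : E d) (hv : 0 < v)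
    (hsa : 0 < sa) (hsb : 0 < sb) (h1 : v ≤ q * sa ^ 2) (hP : ‖P‖ ≤ D * v) :
    ‖P' - P‖ ^ 2 ≤ 2 * (sb ^ 2 - sa ^ 2) ^ 2 * (q * D) ^ 2
      + 2 * (sb ^ 2) ^ 2 * ‖(sa ^ 2)⁻¹ • P - (sb ^ 2)⁻¹ • P'‖ ^ 2 := by
  have hsa2 : 0 < sa ^ 2 := by positivity
  have hsb2 : 0 < sb ^ 2 := by positivity
  set Δ := (sa ^ 2)⁻¹ • P - (sb ^ 2)⁻¹ • P' with hΔ
  set t := ‖Δ‖ with ht
  have ht0 : 0 ≤ t := norm_nonneg _
  have hdec : P' - P = (sb ^ 2 - sa ^ 2) • ((sa ^ 2)⁻¹ • P) - (sb ^ 2) • Δ := by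
    rw [hΔ, smul_sub, sub_smul, smul_inv_smul₀ hsa2.ne', smul_inv_smul₀ hsb2.ne']
    abel
  have hD0 : 0 ≤ D := by
    have := norm_nonneg P
    by_contra h
    push Not at h
    nlinarith
  have hQ : ‖(sa ^ 2)⁻¹ • P‖ ≤ q * D := by
    rw [norm_smul, Real.norm_of_nonneg (inv_nonneg.mpr hsa2.le), inv_mul_le_iff₀ hsa2]
    have := mul_le_mul_of_nonneg_left h1 hD0
    linarith
  have hn : ‖P' - P‖ ≤ |sb ^ 2 - sa ^ 2| * (q * D) + sb ^ 2 * t := by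
    rw [hdec]
    refine (norm_sub_le _ _).trans ?_
    rw [norm_smul (sb ^ 2 - sa ^ 2), norm_smul (sb ^ 2) Δ, Real.norm_eq_abs,
      Real.norm_of_nonneg hsb2.le]
    have := mul_le_mul_of_nonneg_left hQ (abs_nonneg (sb ^ 2 - sa ^ 2))
    linarith
  have h0 : 0 ≤ ‖P' - P‖ := norm_nonneg _
  have hsq : ‖P' - P‖ ^ 2 ≤ (|sb ^ 2 - sa ^ 2| * (q * D) + sb ^ 2 * t) ^ 2 :=
    pow_le_pow_left₀ h0 hn 2
  have habs : |sb ^ 2 - sa ^ 2| ^ 2 = (sb ^ 2 - sa ^ 2) ^ 2 := sq_abs _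
  have hexp : (|sb ^ 2 - sa ^ 2| * (q * D) + sb ^ 2 * t) ^ 2
      + (|sb ^ 2 - sa ^ 2| * (q * D) - sb ^ 2 * t) ^ 2
      = 2 * |sb ^ 2 - sa ^ 2| ^ 2 * (q * D) ^ 2 + 2 * (sb ^ 2) ^ 2 * t ^ 2 := by ring
  rw [habs] at hexp
  have := sq_nonneg (|sb ^ 2 - sa ^ 2| * (q * D) - sb ^ 2 * t)
  linarith

/-- Part A of the vector per-index inequality. -/
private lemma partA (sa sb v v' t : ℝ) (hv : 0 < v) (hsa : 0 < sa) (hsb : 0 < sb)
    (hvv : |v' - v| ≤ v / 2) (h4 : sb ^ 2 ≤ v') (hc2 : sb ≤ 1.24 * sa) :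
    2 * (sb ^ 2) ^ 2 * t ^ 2 ≤ 3.72 * (sa * sb * t ^ 2) * v := by
  have hvv' := abs_le.mp hvv
  have k1 : sb ^ 2 ≤ 1.5 * v := by linarith
  have k2 : (sb ^ 2) ^ 2 ≤ 1.86 * (sa * sb) * v := by
    have k3 : sb * sb ^ 2 ≤ sb * (1.5 * v) := mul_le_mul_of_nonneg_left k1 hsb.le
    have k4 : sb * (sb * (1.5 * v)) ≤ 1.24 * sa * (sb * (1.5 * v)) :=
      mul_le_mul_of_nonneg_right hc2 (by positivity)
    have k5 : sb * (sb * sb ^ 2) ≤ sb * (sb * (1.5 * v)) :=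
      mul_le_mul_of_nonneg_left k3 hsb.le
    have e1 : (sb ^ 2) ^ 2 = sb * (sb * sb ^ 2) := by ring
    have e2 : 1.24 * sa * (sb * (1.5 * v)) = 1.86 * (sa * sb) * v := by ring
    linarith
  have k6 := mul_le_mul_of_nonneg_right k2 (sq_nonneg t)
  have e3 : 3.72 * (sa * sb * t ^ 2) * v = 2 * (1.86 * (sa * sb) * v * t ^ 2) := by ring
  have e4 : 2 * (sb ^ 2) ^ 2 * t ^ 2 = 2 * ((sb ^ 2) ^ 2 * t ^ 2) := by ring
  linarith

/-- Part B of the vector per-index inequality. -/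
private lemma partB (D q sa sb v : ℝ) (hq1 : 1 ≤ q) (hq2 : q ≤ 1.0102) (hv : 0 < v)
    (hsa : 0 < sa) (hsb : 0 < sb) (h2 : sa ^ 2 ≤ v) (hc2 : sb ≤ 1.24 * sa) :
    2 * (sb ^ 2 - sa ^ 2) ^ 2 * (q * D) ^ 2
      ≤ 10.5 * D ^ 2 * (sa ^ 2 + sb ^ 2 - 2 * (sa * sb)) * v := by
  have k1 : (sb + sa) ^ 2 ≤ 5.0176 * v := by
    have h' : sb + sa ≤ 2.24 * sa := by linarith
    have h'' := pow_le_pow_left₀ (by positivity) h' 2
    have e : (2.24 * sa) ^ 2 = 5.0176 * sa ^ 2 := by ring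
    linarith
  have k2 : (sb ^ 2 - sa ^ 2) ^ 2 ≤ (sb - sa) ^ 2 * (5.0176 * v) := by
    have : (sb ^ 2 - sa ^ 2) ^ 2 = (sb - sa) ^ 2 * (sb + sa) ^ 2 := by ring
    rw [this]
    exact mul_le_mul_of_nonneg_left k1 (sq_nonneg _)
  have k5 : 0 ≤ D ^ 2 := sq_nonneg D
  have k3 : 2 * (q * D) ^ 2 ≤ 2.0411 * D ^ 2 := by
    have hq : q ^ 2 ≤ 1.0102 ^ 2 := pow_le_pow_left₀ (by linarith) hq2 2
    have hq' := mul_le_mul_of_nonneg_right hq k5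
    have e : 2 * (q * D) ^ 2 = 2 * (q ^ 2 * D ^ 2) := by ring
    have e' : (1.0102 : ℝ) ^ 2 * D ^ 2 ≤ 1.02055 * D ^ 2 :=
      mul_le_mul_of_nonneg_right (by norm_num) k5
    linarith
  have k4 : 0 ≤ (sb - sa) ^ 2 * v := by positivity
  have k6 := mul_le_mul k2 k3 (by positivity) (by positivity)
  have k7 : (sb - sa) ^ 2 * (5.0176 * v) * (2.0411 * D ^ 2)
      ≤ 10.5 * D ^ 2 * ((sb - sa) ^ 2 * v) := by
    have hM := mul_nonneg k5 k4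
    have e : 10.5 * D ^ 2 * ((sb - sa) ^ 2 * v)
        - (sb - sa) ^ 2 * (5.0176 * v) * (2.0411 * D ^ 2)
        = (10.5 - 5.0176 * 2.0411) * (D ^ 2 * ((sb - sa) ^ 2 * v)) := by ring
    have e' : 0 ≤ (10.5 - 5.0176 * 2.0411) * (D ^ 2 * ((sb - sa) ^ 2 * v)) :=
      mul_nonneg (by norm_num) hM
    linarith
  calc 2 * (sb ^ 2 - sa ^ 2) ^ 2 * (q * D) ^ 2
      = (sb ^ 2 - sa ^ 2) ^ 2 * (2 * (q * D) ^ 2) := by ring
    _ ≤ (sb - sa) ^ 2 * (5.0176 * v) * (2.0411 * D ^ 2) := k6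
    _ ≤ 10.5 * D ^ 2 * ((sb - sa) ^ 2 * v) := k7
    _ = 10.5 * D ^ 2 * (sa ^ 2 + sb ^ 2 - 2 * (sa * sb)) * v := by ring

/-- The vector per-index inequality. -/
private lemma idx2 {d : ℕ} (D q a a' v v' : ℝ) (P P' : E d) (hq1 : 1 ≤ q)
    (hq2 : q ≤ 1.0102) (hv : 0 < v)
    (hvv : |v' - v| ≤ v / 2) (h1 : v ≤ q * a) (h2 : a ≤ v) (h3 : v' ≤ q * a') (h4 : a' ≤ v')
    (hP : ‖P‖ ≤ D * v) :
    ‖P' - P‖ ^ 2 / v ≤ 3.72 * (Real.sqrt (a * a') * ‖a⁻¹ • P - a'⁻¹ • P'‖ ^ 2)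
      + 10.5 * D ^ 2 * (a + a' - 2 * Real.sqrt (a * a')) := by
  obtain ⟨sa, sb, hsa, hsb, rfl, rfl, hs⟩ := roots q a a' v v' hq1 hv hvv h1 h3
  rw [hs]
  obtain ⟨hc1, hc2⟩ := cmp q sa sb v v' hq2 hv hsa hsb hvv h1 h2 h3 h4
  have hn2 := vec D q sa sb v P P' hv hsa hsb h1 hP
  have pA := partA sa sb v v' ‖(sa ^ 2)⁻¹ • P - (sb ^ 2)⁻¹ • P'‖ hv hsa hsb hvv h4 hc2
  have pB := partB D q sa sb v hq1 hq2 hv hsa hsb h2 hc2
  rw [div_le_iff₀ hv, add_mul]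
  linarith

end Absorb

open Absorb in
theorem absorb_statement (d : ℕ) : AbsorbStatement d := by
  intro ι _ D q c₁ c₂ G a a' v v' P P' hD hq1 hq2 hc1 hc2 hv hvv ha ha' hP hP' hG hG' hS1 hS2
  have hX2n : 0 ≤ ∑ i, (v' i - v i) ^ 2 / v i :=
    Finset.sum_nonneg (fun i _ => div_nonneg (sq_nonneg _) (hv i).le)
  have hR1n : 0 ≤ ∑ i, Real.sqrt (a i * a' i) * (v i / a i - v' i / a' i) ^ 2 :=
    Finset.sum_nonneg (fun i _ => mul_nonneg (Real.sqrt_nonneg _) (sq_nonneg _))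
  have hR2n : 0 ≤ ∑ i, Real.sqrt (a i * a' i) * ‖(a i)⁻¹ • P i - (a' i)⁻¹ • P' i‖ ^ 2 :=
    Finset.sum_nonneg (fun i _ => mul_nonneg (Real.sqrt_nonneg _) (sq_nonneg _))
  have E1 : 2 * (G - ∑ i, Real.sqrt (a i * a' i)) ≤ 2 * q * (∑ i, (v' i - v i) ^ 2 / v i)
      + 2.86 * ∑ i, Real.sqrt (a i * a' i) * (v i / a i - v' i / a' i) ^ 2 := by
    have := Finset.sum_le_sum (s := Finset.univ) (fun i _ =>
      idx1 q (a i) (a' i) (v i) (v' i) hq1 hq2 (hv i) (hvv i) (ha i).1 (ha i).2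
        (ha' i).1 (ha' i).2)
    simp only [Finset.sum_add_distrib, Finset.sum_sub_distrib, ← Finset.mul_sum] at this
    rw [hG, hG'] at this
    linarith
  have E2 : ∑ i, ‖P' i - P i‖ ^ 2 / v i
      ≤ 3.72 * (∑ i, Real.sqrt (a i * a' i) * ‖(a i)⁻¹ • P i - (a' i)⁻¹ • P' i‖ ^ 2)
        + 10.5 * D ^ 2 * (2 * (G - ∑ i, Real.sqrt (a i * a' i))) := by
    have := Finset.sum_le_sum (s := Finset.univ) (fun i _ =>
      idx2 D q (a i) (a' i) (v i) (v' i) (P i) (P' i) hq1 hq2 (hv i) (hvv i) (ha i).1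
        (ha i).2 (ha' i).1 (ha' i).2 (hP i))
    simp only [Finset.sum_add_distrib, Finset.sum_sub_distrib, ← Finset.mul_sum] at this
    rw [hG, hG'] at this
    linarith
  generalize (∑ i, Real.sqrt (a i * a' i)) = S at *
  generalize (∑ i, (v' i - v i) ^ 2 / v i) = X2 at *
  generalize (∑ i, Real.sqrt (a i * a' i) * (v i / a i - v' i / a' i) ^ 2) = R1 at *
  generalize (∑ i, Real.sqrt (a i * a' i) * ‖(a i)⁻¹ • P i - (a' i)⁻¹ • P' i‖ ^ 2) = R2 at *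
  generalize (∑ i, ‖P' i - P i‖ ^ 2 / v i) = L at *
  have hD2 : 0 < D ^ 2 := by positivity
  have h6 : 6 * R1 ≤ G - S := by nlinarith
  have hT : G - S ≤ 1.3264 * X2 := by nlinarith
  have hT0 : 0 ≤ G - S := by linarith
  have hc2pos : 0 < c₂ := by
    by_contra h
    push Not at h
    nlinarith
  have hR2 : R2 ≤ 430 * D ^ 2 * (G - S) := by
    have e : R2 ≤ R2 * (430 * c₂ * D ^ 2) := by nlinarith
    have e' : R2 * (430 * c₂ * D ^ 2) = 430 * D ^ 2 * (c₂ * R2) := by ring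
    have e'' : 430 * D ^ 2 * (c₂ * R2) ≤ 430 * D ^ 2 * (G - S) :=
      mul_le_mul_of_nonneg_left hS2 (by positivity)
    linarith
  have hfin : L ≤ 1620.6 * D ^ 2 * (G - S) := by nlinarith
  have hlast : 1620.6 * D ^ 2 * (G - S) ≤ 1620.6 * D ^ 2 * (1.3264 * X2) :=
    mul_le_mul_of_nonneg_left hT (by positivity)
  have : 0 ≤ D ^ 2 * X2 := by positivity
  nlinarith

end Vale.Agent.Lib.P074
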